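import Mathlib
import Vale.Agent.P347.Q.StatC
import Vale.Agent.P347.Q.Rem

/-!
# Module F (Final): the choice of parameters

`chain_tv`: `z₀ = 0`, `μ = phase (sm V ε)`, `h = (Pop V P)^[n+1] (f ∘ fst)`:
`|h 0 - ∫ h dμ| ≤ ∫ |h 0 - h z| dμ ≤ 2/σ exp(-ηn/4) · 10 √d` (`chain_contr`, `sqrt_Qn_le`);
`|∫ (Pop)^[n+1] g dμ - ∫ g dμ| ≤ (n+1) Δ` (induction, `stat_defect` applied to `(Pop)^[k] g`);
`∫ f(z.1) dμ = ∫ f d(gibbs (sm V ε))`, and `gibbs_sm_tv`.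
`final_tv`: given `κ > 0` put `k = κ/8` (w.l.o.g. `κ ≤ 1`), `ε = d^{-1/4-k}`, `η = d^{-1/4-2k}`,
`σ = η^{3/2}`, `M` with `M k ≥ 1` (`(η/ε)^M = d^{-kM} ≤ d^{-1}`), `n = ⌈(8 log d)/η⌉`, a rule
`exists_qrule (M+1)`; total error
`C √d ((n+1)(η³ + 2ε²η + 2√η(η²ε + η³ + d^{-1})) + ε²) + 20 √d η^{-3/2} exp(-ηn/4)`, each term a
negative power of `d` times `log d` (`n + 1 ≤ 10 log d/η`), hence `→ 0`; queries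
`(n+1)(N+1) ≤ 10 (N+1) log d · d^{1/4+2k} ≤ d^{1/4+κ}` eventually.
-/

open MeasureTheory ProbabilityTheory Filter
open scoped InnerProductSpace

namespace Vale.Agent.P347.Q

theorem chain_tv (M : ℕ) (hM : 1 ≤ M) : ∃ C : ℝ, 0 ≤ C ∧ ∀ (d N : ℕ) (V : Sp d → ℝ)
    (P : Par N), 1 ≤ d → IsPotential V → QRule (M + 1) N P.t P.w →
    0 < P.eta → P.eta ≤ 1 / 1000 → 0 < P.eps → P.eps ≤ 1 → 0 < P.sig →
    ∀ f : Sp d → ℝ, Measurable f → (∀ x, 0 ≤ f x) → (∀ x, f x ≤ 1) → ∀ n : ℕ,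
    |(Pop V P)^[n + 1] (fun z => f z.1) 0 - ∫ x, f x ∂(gibbs V)| ≤
      20 / P.sig * Real.exp (-(P.eta * n / 4)) * √d + 64 * P.eps ^ 2 * √d +
      (n + 1) * (C * √d * (P.sig ^ 2 + P.eps ^ 2 * (P.eta ^ 4 / P.sig ^ 2 + P.eta) +
        (P.eta ^ 2 / P.sig + √P.eta) *
          (P.eta ^ 2 * P.eps + P.eta ^ 3 + (P.eta / P.eps) ^ M))) := by
  sorry

theorem final_tv {κ α : ℝ} (hκ : 0 < κ) (hα : 0 < α) : ∀ᶠ d : ℕ in atTop,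
    ∃ (N n : ℕ) (P : Par N), ((n * (N + 1) : ℕ) : ℝ) ≤ (d : ℝ) ^ (1 / 4 + κ) ∧
      ∀ V : Sp d → ℝ, IsPotential V → ∀ f : Sp d → ℝ, Measurable f → (∀ x, 0 ≤ f x) →
        (∀ x, f x ≤ 1) →
        |(Pop V P)^[n] (fun z => f z.1) 0 - ∫ x, f x ∂(gibbs V)| ≤ α := by
  sorry

end Vale.Agent.P347.Q
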